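import Mathlib

/-!
P146: the semicircle law as the law of `2 cos θ`, `θ` of density `(2/π) sin² θ` on `[0, π]`.
-/

namespace Vale.Agent.P146F

open MeasureTheory Set Real
open scoped ENNReal

/-- The semicircle law. -/
noncomputable def sc : Measure ℝ :=
  ((volume.restrict (Ioc (0 : ℝ) π)).withDensity fun θ => ENNReal.ofReal (2 / π * sin θ ^ 2)).map
    fun θ => 2 * cos θ

/-- The Chebyshev polynomials of the semicircle law. -/
noncomputable def cheb (j : ℕ) (x : ℝ) : ℝ := (Polynomial.Chebyshev.S ℝ (j : ℤ)).eval x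

lemma integral_sc {φ : ℝ → ℝ} (hφ : Measurable φ) :
    ∫ x, φ x ∂sc = 2 / π * ∫ θ in (0 : ℝ)..π, sin θ ^ 2 * φ (2 * cos θ) := by
  have hm : Measurable fun θ : ℝ => 2 / π * sin θ ^ 2 := by fun_prop
  rw [sc, integral_map (by fun_prop) hφ.aestronglyMeasurable,
    integral_withDensity_eq_integral_toReal_smul hm.ennreal_ofReal
      (Filter.Eventually.of_forall fun _ => ENNReal.ofReal_lt_top),
    intervalIntegral.integral_of_le pi_pos.le, ← integral_const_mul]
  refine integral_congr_ae (Filter.Eventually.of_forall fun θ => ?_)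
  simp only [smul_eq_mul, ENNReal.toReal_ofReal (show 0 ≤ 2 / π * sin θ ^ 2 by positivity)]
  ring

instance isProbabilityMeasure_sc : IsProbabilityMeasure sc := by
  unfold sc
  refine @Measure.isProbabilityMeasure_map _ _ _ _ _ ?_ _ (by fun_prop)
  refine ⟨?_⟩
  have hc : Continuous fun θ : ℝ => 2 / π * sin θ ^ 2 := by fun_prop
  rw [withDensity_apply _ MeasurableSet.univ, Measure.restrict_univ,
    ← ofReal_integral_eq_lintegral_ofReal hc.integrableOn_Ioc
      (Filter.Eventually.of_forall fun θ => by positivity),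
    ← intervalIntegral.integral_of_le pi_pos.le, intervalIntegral.integral_const_mul, integral_sin_sq]
  simp

lemma ae_sc : ∀ᵐ x ∂sc, x ∈ Icc (-2 : ℝ) 2 := by
  refine (ae_map_iff (by fun_prop) measurableSet_Icc).2 (Filter.Eventually.of_forall fun θ => ?_)
  constructor <;> linarith [neg_one_le_cos θ, cos_le_one θ]

lemma integrable_sc {φ : ℝ → ℝ} (hφ : Continuous φ) : Integrable φ sc := by
  obtain ⟨C, hC⟩ := isCompact_Icc.exists_bound_of_continuousOn (hφ.continuousOn (s := Icc (-2 : ℝ) 2))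
  exact Integrable.of_bound hφ.aestronglyMeasurable C (ae_sc.mono fun x hx => hC x hx)

/-- Points near the top edge carry mass of order the cube of the angle. -/
lemma sc_top_mass {a : ℝ} (ha : 0 < a) (ha1 : a ≤ π / 4) :
    2 / π * (a * sin a ^ 2) ≤ sc.real (Icc (2 - 4 * a ^ 2) 2) := by
  have hp := pi_pos
  have h := integral_sc (φ := (Icc (2 - 4 * a ^ 2) 2).indicator fun _ => (1 : ℝ))
    (measurable_const.indicator measurableSet_Icc)
  rw [integral_indicator_const _ measurableSet_Icc, smul_eq_mul, mul_one] at h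
  rw [h]
  refine mul_le_mul_of_nonneg_left ?_ (by positivity)
  have hf : ∀ θ : ℝ, 0 ≤ sin θ ^ 2 * (Icc (2 - 4 * a ^ 2) 2).indicator (fun _ => (1 : ℝ)) (2 * cos θ) :=
    fun θ => mul_nonneg (sq_nonneg _) (indicator_nonneg (fun _ _ => zero_le_one) _)
  have hint : IntervalIntegrable
      (fun θ => sin θ ^ 2 * (Icc (2 - 4 * a ^ 2) 2).indicator (fun _ => (1 : ℝ)) (2 * cos θ))
      volume 0 π := by
    rw [intervalIntegrable_iff]
    have hfin : IsFiniteMeasure (volume.restrict (uIoc (0 : ℝ) π)) :=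
      ⟨by rw [Measure.restrict_apply_univ]; exact measure_Ioc_lt_top⟩
    refine Integrable.of_bound (Measurable.aestronglyMeasurable
      ((by fun_prop : Measurable fun θ => sin θ ^ 2).mul
        ((measurable_const.indicator measurableSet_Icc).comp (by fun_prop)))) 1
      (Filter.Eventually.of_forall fun θ => ?_)
    rw [Real.norm_eq_abs, abs_of_nonneg (hf θ)]
    exact mul_le_one₀ (sin_sq_le_one θ) (indicator_nonneg (fun _ _ => zero_le_one) _)
      (indicator_le_self' (fun _ _ => zero_le_one) _)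
  have h2 : a * sin a ^ 2 ≤ ∫ θ in a..2 * a,
      sin θ ^ 2 * (Icc (2 - 4 * a ^ 2) 2).indicator (fun _ => (1 : ℝ)) (2 * cos θ) := by
    rw [show a * sin a ^ 2 = ∫ _ in a..2 * a, sin a ^ 2 by rw [intervalIntegral.integral_const, smul_eq_mul]; ring]
    refine intervalIntegral.integral_mono_on (by linarith) intervalIntegrable_const
      (hint.mono_set ?_) fun θ hθ => ?_
    · rw [uIcc_of_le (by linarith), uIcc_of_le hp.le]
      exact Icc_subset_Icc ha.le (by linarith)
    · have hmem : 2 * cos θ ∈ Icc (2 - 4 * a ^ 2) 2 := by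
        have := one_sub_sq_div_two_le_cos (x := θ)
        have : θ ^ 2 ≤ (2 * a) ^ 2 := pow_le_pow_left₀ (ha.le.trans hθ.1) hθ.2 2
        constructor <;> nlinarith [cos_le_one θ]
      rw [indicator_of_mem hmem, mul_one]
      refine pow_le_pow_left₀ (sin_nonneg_of_nonneg_of_le_pi ha.le (by linarith)) ?_ 2
      exact sin_le_sin_of_le_of_le_pi_div_two (by linarith) (by linarith [hθ.2]) hθ.1
  refine h2.trans (intervalIntegral.integral_mono_interval ha.le (by linarith) (by linarith)
    (Filter.Eventually.of_forall hf) hint)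

lemma cheb_zero (x : ℝ) : cheb 0 x = 1 := by simp [cheb]

lemma cheb_one (x : ℝ) : cheb 1 x = x := by simp [cheb]

lemma cheb_succ (j : ℕ) (x : ℝ) : cheb (j + 2) x = x * cheb (j + 1) x - cheb j x := by
  simp only [cheb]
  push_cast
  rw [Polynomial.Chebyshev.S_add_two, Polynomial.eval_sub, Polynomial.eval_mul, Polynomial.eval_X]

lemma continuous_cheb (j : ℕ) : Continuous (cheb j) :=
  (Polynomial.Chebyshev.S ℝ (j : ℤ)).continuous

lemma cheb_sin (j : ℕ) (θ : ℝ) : cheb j (2 * cos θ) * sin θ = sin (((j : ℝ) + 1) * θ) := by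
  have := Polynomial.Chebyshev.S_two_mul_real_cos (θ := θ) (n := (j : ℤ))
  push_cast at this
  exact this

lemma cheb_two (j : ℕ) : cheb j 2 = (j : ℝ) + 1 := by
  simp [cheb, Polynomial.Chebyshev.S_eval_two]

lemma abs_cheb_cos (j : ℕ) (θ : ℝ) : |cheb j (2 * cos θ)| ≤ (j : ℝ) + 1 := by
  induction j with
  | zero => simp [cheb_zero]
  | succ j ih =>
    have e : ∀ i : ℕ, cheb (i + 1) (2 * cos θ) = cos θ * cheb i (2 * cos θ) + cos (((i : ℝ) + 1) * θ) := by
      intro i
      induction i with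
      | zero => simp [cheb_one, cheb_zero]; ring
      | succ i ihi =>
        rw [cheb_succ]
        have h := cheb_sin i θ
        have hs : sin θ ^ 2 = 1 - cos θ ^ 2 := by linarith [sin_sq_add_cos_sq θ]
        push_cast
        rw [show ((i : ℝ) + 1 + 1) * θ = ((i : ℝ) + 1) * θ + θ by ring, cos_add, ← h, ihi]
        linear_combination cheb i (2 * cos θ) * hs
    rw [e j]
    refine (abs_add_le _ _).trans ?_
    rw [abs_mul]
    push_cast
    exact add_le_add ((mul_le_of_le_one_left (abs_nonneg _) (abs_cos_le_one θ)).trans ih)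
      (abs_cos_le_one _)

lemma abs_cheb_le (j : ℕ) {x : ℝ} (hx : x ∈ Icc (-2 : ℝ) 2) : |cheb j x| ≤ (j : ℝ) + 1 := by
  have h := abs_cheb_cos j (arccos (x / 2))
  rwa [cos_arccos (by linarith [hx.1]) (by linarith [hx.2]), mul_div_cancel₀ x (two_ne_zero' ℝ)] at h

lemma integral_cos_int {c : ℤ} (hc : c ≠ 0) : ∫ θ in (0 : ℝ)..π, cos ((c : ℝ) * θ) = 0 := by
  rw [intervalIntegral.integral_comp_mul_left _ (Int.cast_ne_zero.2 hc), integral_cos,
    sin_int_mul_pi, mul_zero, sin_zero, sub_zero, smul_zero]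

/-- The Chebyshev polynomials are orthonormal. -/
theorem integral_cheb_mul (i j : ℕ) : ∫ x, cheb i x * cheb j x ∂sc = if i = j then 1 else 0 := by
  rw [integral_sc (φ := fun x => cheb i x * cheb j x) ((continuous_cheb i).mul (continuous_cheb j)).measurable]
  have e : ∀ θ : ℝ, sin θ ^ 2 * (cheb i (2 * cos θ) * cheb j (2 * cos θ)) =
      (cos ((((i : ℤ) - j : ℤ) : ℝ) * θ) - cos ((((i : ℤ) + j + 2 : ℤ) : ℝ) * θ)) / 2 := fun θ => by
    rw [show sin θ ^ 2 * (cheb i (2 * cos θ) * cheb j (2 * cos θ)) =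
      (cheb i (2 * cos θ) * sin θ) * (cheb j (2 * cos θ) * sin θ) by ring, cheb_sin, cheb_sin,
      cos_sub_cos]
    push_cast
    rw [show (((i : ℝ) - j) * θ + ((i : ℝ) + j + 2) * θ) / 2 = ((i : ℝ) + 1) * θ by ring,
      show (((i : ℝ) - j) * θ - ((i : ℝ) + j + 2) * θ) / 2 = -(((j : ℝ) + 1) * θ) by ring, sin_neg]
    ring
  simp only [e]
  rw [intervalIntegral.integral_div, intervalIntegral.integral_sub
      (Continuous.intervalIntegrable (by fun_prop) _ _) (Continuous.intervalIntegrable (by fun_prop) _ _),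
    integral_cos_int (c := (i : ℤ) + j + 2) (by omega), sub_zero]
  rcases eq_or_ne i j with rfl | h
  · simp only [sub_self, Int.cast_zero, zero_mul, cos_zero, intervalIntegral.integral_const,
      smul_eq_mul, if_true]
    field_simp
    ring
  · rw [integral_cos_int (c := (i : ℤ) - j) (by omega), if_neg h]
    simp

theorem integral_cheb (j : ℕ) : ∫ x, cheb j x ∂sc = if j = 0 then 1 else 0 := by
  have := integral_cheb_mul j 0
  simpa [cheb_zero] using this

/-- The moments of the semicircle law. -/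
theorem integral_pow_sc_step (k : ℕ) :
    ((k : ℝ) + 4) * ∫ x, x ^ (k + 2) ∂sc = 4 * ((k : ℝ) + 1) * ∫ x, x ^ k ∂sc := by
  have hI : ∀ n : ℕ, ∫ x, x ^ n ∂sc =
      2 / π * 2 ^ n * ((∫ θ in (0 : ℝ)..π, cos θ ^ n) / ((n : ℝ) + 2)) := fun n => by
    rw [integral_sc (φ := fun x => x ^ n) (measurable_id.pow_const n), mul_assoc]
    congr 1
    have e : ∀ θ : ℝ, sin θ ^ 2 * (2 * cos θ) ^ n = 2 ^ n * (cos θ ^ n - cos θ ^ (n + 2)) := fun θ => by
      rw [sin_sq, mul_pow, pow_add]; ring
    simp only [e]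
    rw [intervalIntegral.integral_const_mul, intervalIntegral.integral_sub
      (Continuous.intervalIntegrable (by fun_prop) _ _) (Continuous.intervalIntegrable (by fun_prop) _ _),
      integral_cos_pow, sin_pi, sin_zero]
    field_simp
    ring
  rw [hI, hI, integral_cos_pow, sin_pi, sin_zero]
  push_cast
  field_simp
  ring

/-- The Cauchy transform and its slope outside the support. -/
theorem integral_cheb_cauchy {s : ℝ} (hs0 : 0 < s) (hs1 : s < 1) (j : ℕ) :
    ∫ x, cheb j x * (s + s⁻¹ - x)⁻¹ ∂sc = s ^ (j + 1) ∧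
      ∫ x, cheb j x * ((s + s⁻¹ - x)⁻¹) ^ 2 ∂sc = ((j : ℝ) + 1) * s ^ (j + 2) / (1 - s ^ 2) := by
  set z := s + s⁻¹ with hz
  have hsi : s * s⁻¹ = 1 := mul_inv_cancel₀ hs0.ne'
  have hz2 : 2 < z := by
    rw [hz]
    nlinarith [mul_pos hs0 hs0, inv_pos.2 hs0, sq_pos_of_pos (sub_pos.2 hs1)]
  set r : ℝ → ℝ := fun x => (max (z - x) (z - 2))⁻¹ with hrdef
  have hr : Continuous r :=
    Continuous.inv₀ (by fun_prop) fun x => ne_of_gt (lt_max_of_lt_right (by linarith))
  have hae : ∀ᵐ x ∂sc, (z - x)⁻¹ = r x ∧ x ∈ Icc (-2 : ℝ) 2 := ae_sc.mono fun x hx =>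
    ⟨by simp only [hrdef]; rw [max_eq_left (by linarith [hx.2])], hx⟩
  have hrb : ∀ x, |r x| ≤ (z - 2)⁻¹ := fun x => by
    rw [abs_of_pos (inv_pos.2 (lt_max_of_lt_right (by linarith)))]
    exact inv_anti₀ (by linarith) (le_max_right _ _)
  -- the telescoping expansion
  have htel : ∀ (n : ℕ) (x : ℝ), (z - x) * ∑ i ∈ Finset.range (n + 1), s ^ (i + 1) * cheb i x =
      1 - s ^ (n + 1) * (cheb (n + 1) x - s * cheb n x) := fun n x => by
    induction n with
    | zero => simp [cheb_zero, cheb_one, hz]; linear_combination hsi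
    | succ n ih =>
      rw [Finset.sum_range_succ, mul_add, ih, cheb_succ, hz]
      linear_combination (s ^ (n + 1) * cheb (n + 1) x) * hsi
  -- integrals against polynomials
  have hexp : ∀ (n : ℕ) {φ : ℝ → ℝ}, Continuous φ → ∫ x, φ x * (z - x)⁻¹ ∂sc =
      ∑ i ∈ Finset.range (n + 1), s ^ (i + 1) * ∫ x, φ x * cheb i x ∂sc +
        ∫ x, φ x * r x * (s ^ (n + 1) * (cheb (n + 1) x - s * cheb n x)) ∂sc := by
    intro n φ hφ
    have hc := continuous_cheb
    rw [integral_congr_ae (hae.mono fun x hx => by simp only [hx.1] : (fun x => φ x * (z - x)⁻¹) =ᵐ[sc]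
        fun x => φ x * r x),
      ← Finset.sum_congr rfl fun i _ => integral_const_mul (s ^ (i + 1)) fun x => φ x * cheb i x,
      ← integral_finsetSum _ fun i _ => (integrable_sc (by fun_prop)).const_mul _,
      ← integral_add (integrable_sc (by fun_prop)) (integrable_sc (by fun_prop))]
    refine integral_congr_ae (hae.mono fun x hx => ?_)
    have hzx : z - x ≠ 0 := by linarith [hx.2.2]
    have h := htel n x
    simp only [← hx.1]
    rw [show ∑ i ∈ Finset.range (n + 1), s ^ (i + 1) * (φ x * cheb i x) =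
        φ x * ∑ i ∈ Finset.range (n + 1), s ^ (i + 1) * cheb i x by
      rw [Finset.mul_sum]; exact Finset.sum_congr rfl fun i _ => by ring]
    field_simp
    linear_combination (-φ x) * h
  have hrem : ∀ {φ : ℝ → ℝ}, Continuous φ → Filter.Tendsto
      (fun n : ℕ => ∫ x, φ x * r x * (s ^ (n + 1) * (cheb (n + 1) x - s * cheb n x)) ∂sc)
      Filter.atTop (nhds 0) := by
    intro φ hφ
    obtain ⟨C, hC⟩ := isCompact_Icc.exists_bound_of_continuousOn (hφ.continuousOn (s := Icc (-2 : ℝ) 2))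
    have hlim : Filter.Tendsto (fun n : ℕ => C * (z - 2)⁻¹ * (((n : ℝ) + 2) * 2 * s ^ (n + 1)))
        Filter.atTop (nhds 0) := by
      have h1 := ((tendsto_self_mul_const_pow_of_lt_one hs0.le hs1).const_mul (2 * s)).add
        ((tendsto_pow_atTop_nhds_zero_of_lt_one hs0.le hs1).const_mul (4 * s))
      simp only [mul_zero, add_zero] at h1
      refine (mul_zero (C * (z - 2)⁻¹)) ▸ (h1.congr fun n => ?_).const_mul (C * (z - 2)⁻¹)
      ring
    refine squeeze_zero_norm (fun n => ?_) hlim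
    refine (norm_integral_le_of_norm_le (integrable_const _) (ae_sc.mono fun x hx => ?_)).trans
      (le_of_eq (by rw [integral_const, probReal_univ, one_smul]))
    rw [Real.norm_eq_abs, abs_mul, abs_mul]
    have hC0 : 0 ≤ C := (norm_nonneg _).trans (hC x hx)
    refine mul_le_mul (mul_le_mul ((Real.norm_eq_abs _).ge.trans (hC x hx)) (hrb x) (abs_nonneg _) hC0)
      ?_ (abs_nonneg _) (mul_nonneg hC0 (inv_nonneg.2 (by linarith)))
    rw [abs_mul, abs_of_nonneg (pow_nonneg hs0.le _), mul_comm (s ^ (n + 1))]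
    refine mul_le_mul_of_nonneg_right ((abs_sub _ _).trans ?_) (pow_nonneg hs0.le _)
    rw [abs_mul, abs_of_pos hs0]
    have h1 := abs_cheb_le (n + 1) hx
    have h2 := (mul_le_of_le_one_left (abs_nonneg _) hs1.le).trans (abs_cheb_le n hx)
    push_cast at h1 h2 ⊢
    linarith
  have hval : ∀ {φ : ℝ → ℝ} {L : ℝ}, Continuous φ →
      Filter.Tendsto (fun n : ℕ => ∑ i ∈ Finset.range (n + 1), s ^ (i + 1) * ∫ x, φ x * cheb i x ∂sc)
        Filter.atTop (nhds L) → ∫ x, φ x * (z - x)⁻¹ ∂sc = L := by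
    intro φ L hφ hL
    have h := hL.add (hrem hφ)
    rw [add_zero] at h
    exact tendsto_nhds_unique (tendsto_const_nhds.congr fun n => hexp n hφ) h
  have h1 : ∀ i : ℕ, ∫ x, cheb i x * (z - x)⁻¹ ∂sc = s ^ (i + 1) := fun i => by
    refine hval (continuous_cheb i) (tendsto_const_nhds.congr' ?_)
    filter_upwards [Filter.eventually_ge_atTop i] with n hn
    simp [integral_cheb_mul, hn]
  refine ⟨h1 j, ?_⟩
  have h0 : ∫ x, ((z - x)⁻¹) ^ 2 ∂sc = s ^ 2 / (1 - s ^ 2) := by
    rw [integral_congr_ae (hae.mono fun x hx => by simp only [sq, hx.1] :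
      (fun x => ((z - x)⁻¹) ^ 2) =ᵐ[sc] fun x => r x * r x),
      show ∫ x, r x * r x ∂sc = ∫ x, r x * (z - x)⁻¹ ∂sc from
        integral_congr_ae (hae.mono fun x hx => by simp only [hx.1])]
    refine hval hr ?_
    have e : ∀ i : ℕ, ∫ x, r x * cheb i x ∂sc = s ^ (i + 1) := fun i => by
      rw [← h1 i]
      exact integral_congr_ae (hae.mono fun x hx => by simp only [hx.1, mul_comm])
    have hs2 : s ^ 2 < 1 := pow_lt_one₀ hs0.le hs1 two_ne_zero
    have hg := ((hasSum_geometric_of_lt_one (sq_nonneg s) hs2).mul_left (s ^ 2)).tendsto_sum_nat.comp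
      (Filter.tendsto_add_atTop_nat 1)
    refine (hg.congr fun n => ?_).trans (by rw [div_eq_mul_inv])
    simp only [Function.comp_apply, e]
    exact Finset.sum_congr rfl fun i _ => by ring
  have hint : ∀ (φ : ℝ → ℝ) (p : ℕ), Continuous φ → Integrable (fun x => φ x * ((z - x)⁻¹) ^ p) sc :=
    fun φ p hφ => (integrable_sc (φ := fun x => φ x * r x ^ p) (by fun_prop)).congr
      (hae.mono fun x hx => by simp only [hx.1])
  have hnx : ∀ᵐ x ∂sc, x * ((z - x)⁻¹) ^ 2 = z * ((z - x)⁻¹) ^ 2 - (z - x)⁻¹ :=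
    hae.mono fun x hx => by
      have : z - x ≠ 0 := by linarith [hx.2.2]
      field_simp
      ring
  have hs2' : (1 : ℝ) - s ^ 2 ≠ 0 := by nlinarith
  have key : ∀ i : ℕ, ∫ x, cheb i x * ((z - x)⁻¹) ^ 2 ∂sc = ((i : ℝ) + 1) * s ^ (i + 2) / (1 - s ^ 2) ∧
      ∫ x, cheb (i + 1) x * ((z - x)⁻¹) ^ 2 ∂sc = ((i : ℝ) + 2) * s ^ (i + 3) / (1 - s ^ 2) := by
    intro i
    induction i with
    | zero =>
      refine ⟨by simp [cheb_zero, ← h0, inv_pow], ?_⟩
      have i1 : Integrable (fun x => z * ((z - x)⁻¹) ^ 2) sc := by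
        simpa using (hint (fun _ => z) 2 continuous_const)
      have i2 : Integrable (fun x => (z - x)⁻¹) sc := by
        simpa using (hint (fun _ => 1) 1 continuous_const)
      rw [show (fun x => cheb (0 + 1) x * ((z - x)⁻¹) ^ 2) = fun x => x * ((z - x)⁻¹) ^ 2 from
        funext fun x => by rw [cheb_one], integral_congr_ae hnx, integral_sub i1 i2,
        integral_const_mul, h0, show ∫ x, (z - x)⁻¹ ∂sc = s by simpa [cheb_zero] using h1 0, hz]
      field_simp
      ring
    | succ i ih =>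
      refine ⟨by push_cast; linear_combination ih.2, ?_⟩
      have e : ∀ᵐ x ∂sc, cheb (i + 2) x * ((z - x)⁻¹) ^ 2 =
          z * (cheb (i + 1) x * ((z - x)⁻¹) ^ 2) - cheb (i + 1) x * (z - x)⁻¹ -
            cheb i x * ((z - x)⁻¹) ^ 2 := hnx.mono fun x hx => by
        rw [cheb_succ]
        linear_combination cheb (i + 1) x * hx
      have i1 := (hint _ 2 (continuous_cheb (i + 1))).const_mul z
      have i2 : Integrable (fun x => cheb (i + 1) x * (z - x)⁻¹) sc := by
        simpa using (hint _ 1 (continuous_cheb (i + 1)))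
      have i3 : Integrable (fun x => z * (cheb (i + 1) x * ((z - x)⁻¹) ^ 2) -
          cheb (i + 1) x * (z - x)⁻¹) sc := i1.sub i2
      rw [integral_congr_ae e, integral_sub i3 (hint _ 2 (continuous_cheb i)),
        integral_sub i1 i2, integral_const_mul, ih.1, ih.2, h1, hz]
      push_cast
      field_simp
      ring
  exact (key j).1

end Vale.Agent.P146F
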