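import Vale.Agent.P146F.Semi.Law
import Vale.Agent.P166F.Energy.Snap

/-!
P146: the R-transform of the semicircle law.
-/

namespace Vale.Agent.P146F

open MeasureTheory Set Real
open Vale.Agent.P166F (zf zset rtr zset_bddBelow)

lemma support_sc_subset : sc.support ⊆ Icc (-2 : ℝ) 2 :=
  Measure.support_subset_of_isClosed isClosed_Icc ae_sc

lemma isCompact_support_sc : IsCompact sc.support :=
  isCompact_Icc.of_isClosed_subset Measure.isClosed_support support_sc_subset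

lemma sSup_support_sc : sSup sc.support = 2 := by
  refine le_antisymm (csSup_le (Measure.nonempty_support (NeZero.ne _)) fun x hx =>
    (support_sc_subset hx).2) (le_csSup isCompact_support_sc.bddAbove ?_)
  rw [Metric.nhds_basis_ball.mem_measureSupport]
  intro ε hε
  set a := min (π / 4) (min (1 / 2) (ε / 4))
  have ha : 0 < a := lt_min (by positivity) (lt_min (by norm_num) (by linarith))
  have h := sc_top_mass ha (min_le_left _ _)
  have hs : 0 < sin a := sin_pos_of_pos_of_lt_pi ha (by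
    have : a ≤ π / 4 := min_le_left _ _
    linarith [pi_pos])
  have hpos : 0 < sc.real (Icc (2 - 4 * a ^ 2) 2) := lt_of_lt_of_le (by positivity) h
  refine (ENNReal.toReal_pos_iff.1 hpos).1.trans_le (measure_mono fun x hx => ?_)
  rw [Metric.mem_ball, Real.dist_eq, abs_lt]
  have h1 : a ≤ ε / 4 := (min_le_right _ _).trans (min_le_right _ _)
  have h2 : a ≤ 1 / 2 := (min_le_right _ _).trans (min_le_left _ _)
  have : a ^ 2 ≤ a * (1 / 2) := by rw [sq]; exact mul_le_mul_of_nonneg_left h2 ha.le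
  constructor <;> linarith [hx.1, hx.2]

/-- Every point right of the edge is `s + 1/s` with `s < 1`. -/
lemma exists_edge_param {z : ℝ} (hz : 2 < z) : ∃ s, 0 < s ∧ s < 1 ∧ z = s + s⁻¹ := by
  set d := Real.sqrt (z ^ 2 - 4)
  have hd0 : 0 ≤ d := Real.sqrt_nonneg _
  have hd : d ^ 2 = z ^ 2 - 4 := Real.sq_sqrt (by nlinarith)
  have hlt : d < z := by nlinarith
  refine ⟨(z - d) / 2, by linarith, ?_, ?_⟩
  · nlinarith
  · have h : (z - d) / 2 * ((z + d) / 2) = 1 := by linear_combination (-1 / 4 : ℝ) * hd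
    rw [inv_eq_of_mul_eq_one_right h]
    ring

lemma cauchy_sc {s : ℝ} (hs0 : 0 < s) (hs1 : s < 1) : ∫ x, (s + s⁻¹ - x)⁻¹ ∂sc = s := by
  simpa [cheb_zero] using (integral_cheb_cauchy hs0 hs1 0).1

lemma two_lt_edge {s : ℝ} (hs0 : 0 < s) (hs1 : s < 1) : 2 < s + s⁻¹ := by
  have : s * s⁻¹ = 1 := mul_inv_cancel₀ hs0.ne'
  nlinarith [inv_pos.2 hs0, sq_pos_of_pos (sub_pos.2 hs1)]

theorem zf_sc {w : ℝ} (hw : 0 < w) : zf sc w = if w < 1 then w + w⁻¹ else 2 := by
  show sInf (zset sc w) = _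
  split_ifs with h
  · refine IsLeast.csInf_eq ⟨⟨by rw [sSup_support_sc]; exact two_lt_edge hw h, (cauchy_sc hw h).le⟩,
      fun z hz => ?_⟩
    obtain ⟨hz1, hz2⟩ := hz
    rw [sSup_support_sc] at hz1
    obtain ⟨s, hs0, hs1, rfl⟩ := exists_edge_param hz1
    rw [cauchy_sc hs0 hs1] at hz2
    have h1 : s * s⁻¹ = 1 := mul_inv_cancel₀ hs0.ne'
    have h2 : w * w⁻¹ = 1 := mul_inv_cancel₀ hw.ne'
    nlinarith [mul_pos hs0 hw, mul_le_mul_of_nonneg_left hs1.le hw.le, inv_pos.2 hs0, inv_pos.2 hw,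
      mul_pos (inv_pos.2 hs0) (inv_pos.2 hw)]
  · have e : zset sc w = Ioi 2 := Set.ext fun z => by
      refine ⟨fun hz => sSup_support_sc ▸ hz.1, fun hz => ⟨by rw [sSup_support_sc]; exact hz, ?_⟩⟩
      obtain ⟨s, hs0, hs1, rfl⟩ := exists_edge_param hz
      rw [cauchy_sc hs0 hs1]
      linarith [not_lt.1 h]
    rw [e, csInf_Ioi]

theorem rtr_sc {w : ℝ} : rtr sc w = if w ≤ 0 then 0 else if w < 1 then w else 2 - w⁻¹ := by
  rw [rtr]
  split_ifs with h h'
  · simpa [cheb_one] using integral_cheb 1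
  · rw [zf_sc (not_le.1 h), if_pos h']; ring
  · rw [zf_sc (not_le.1 h), if_neg h']

theorem rtr_sc_eq {w : ℝ} (h0 : 0 < w) (h1 : w ≤ 1) : rtr sc w = w := by
  rw [rtr_sc, if_neg (not_le.2 h0)]
  split_ifs with h
  · rfl
  · rw [le_antisymm h1 (not_lt.1 h)]; norm_num

theorem rtr_sc_le {w : ℝ} (h0 : 0 < w) : rtr sc w ≤ w := by
  rw [rtr_sc, if_neg (not_le.2 h0)]
  split_ifs with h
  · exact le_rfl
  · have h2 : w * w⁻¹ = 1 := mul_inv_cancel₀ h0.ne'
    nlinarith [mul_nonneg h0.le (sq_nonneg (w - 1)), inv_pos.2 h0]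

theorem rtr_sc_zero : rtr sc 0 = 0 := by rw [rtr_sc, if_pos le_rfl]

end Vale.Agent.P146F
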