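import Vale.Agent.P146F.Semi.Fejer
import Vale.Agent.P146F.Semi.Rtr
import Vale.Agent.P166F.Energy.Snap

/-!
P146: lowering the semicircle spectrum by the test function lowers the energy at a definite rate.
-/

namespace Vale.Agent.P146F

open MeasureTheory Set Real
open Vale.Agent.P166F (zf zset rtr zset_bddBelow OLaw energy tail)

/-- The lowered semicircle law. -/
noncomputable def dfm (K : ℕ) (t : ℝ) : Measure ℝ := sc.map fun x => x - t * tst K x

lemma measurable_dfm (K : ℕ) (t : ℝ) : Measurable fun x => x - t * tst K x :=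
  (continuous_id.sub (continuous_const.mul (continuous_tst K))).measurable

instance isProbabilityMeasure_dfm (K : ℕ) (t : ℝ) : IsProbabilityMeasure (dfm K t) :=
  Measure.isProbabilityMeasure_map (measurable_dfm K t).aemeasurable

lemma support_dfm_subset (K : ℕ) {t : ℝ} (ht : 0 ≤ t) :
    (dfm K t).support ⊆ Icc (-2 - t * K) 2 := by
  refine Measure.support_subset_of_isClosed isClosed_Icc ?_
  refine (ae_map_iff (measurable_dfm K t).aemeasurable measurableSet_Icc).2 (ae_sc.mono fun x hx => ?_)
  have h1 := mul_le_mul_of_nonneg_left ((le_abs_self _).trans (abs_tst_le K hx)) ht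
  have h2 := mul_nonneg ht (tst_nonneg K hx)
  constructor <;> linarith [hx.1, hx.2]

lemma isCompact_support_dfm (K : ℕ) {t : ℝ} (ht : 0 ≤ t) : IsCompact (dfm K t).support :=
  isCompact_Icc.of_isClosed_subset Measure.isClosed_support (support_dfm_subset K ht)

lemma sSup_support_dfm_le (K : ℕ) {t : ℝ} (ht : 0 ≤ t) : sSup (dfm K t).support ≤ 2 :=
  csSup_le (Measure.nonempty_support (NeZero.ne _)) fun _ hx => (support_dfm_subset K ht hx).2

lemma integral_dfm_cauchy (K : ℕ) (t z : ℝ) :
    ∫ x, (z - x)⁻¹ ∂dfm K t = ∫ x, (z - (x - t * tst K x))⁻¹ ∂sc :=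
  integral_map (measurable_dfm K t).aemeasurable
    (f := fun y => (z - y)⁻¹) (measurable_const.sub measurable_id).inv.aestronglyMeasurable

lemma integrable_of_ae {φ : ℝ → ℝ} (hφ : Measurable φ) {C : ℝ} (h : ∀ x ∈ Icc (-2 : ℝ) 2, |φ x| ≤ C) :
    Integrable φ sc :=
  Integrable.of_bound hφ.aestronglyMeasurable C (ae_sc.mono h)

/-- Lowering the spectrum lowers the R-transform. -/
theorem rtr_dfm_le (K : ℕ) {t : ℝ} (ht : 0 ≤ t) (w : ℝ) : rtr (dfm K t) w ≤ rtr sc w := by
  simp only [rtr]
  split_ifs with hw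
  · rw [dfm, integral_map (measurable_dfm K t).aemeasurable (f := fun y => y) (by fun_prop)]
    refine integral_mono_ae (integrable_sc (continuous_id.sub (continuous_const.mul (continuous_tst K))))
      (integrable_sc continuous_id) (ae_sc.mono fun x hx => ?_)
    simpa using mul_nonneg ht (tst_nonneg K hx)
  · refine sub_le_sub_right ?_ _
    refine csInf_le_csInf (zset_bddBelow _ _)
      ⟨_, Vale.Agent.P166F.mem_zset isCompact_support_sc (not_le.1 hw)⟩ fun z hz => ?_
    obtain ⟨hz1, hz2⟩ := hz
    rw [sSup_support_sc] at hz1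
    refine ⟨(sSup_support_dfm_le K ht).trans_lt hz1, le_trans ?_ hz2⟩
    rw [integral_dfm_cauchy]
    refine integral_mono_of_nonneg (ae_sc.mono fun x hx => ?_)
      (integrable_of_ae (measurable_const.sub measurable_id).inv (C := (z - 2)⁻¹) fun x hx => ?_)
      (ae_sc.mono fun x hx => ?_)
    · show 0 ≤ _
      have := mul_nonneg ht (tst_nonneg K hx)
      exact inv_nonneg.2 (by linarith [hx.2])
    · show |(z - x)⁻¹| ≤ _
      rw [abs_of_pos (inv_pos.2 (by linarith [hx.2]))]
      exact inv_anti₀ (by linarith) (by linarith [hx.2])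
    · have := mul_nonneg ht (tst_nonneg K hx)
      exact inv_anti₀ (by linarith [hx.2]) (by linarith)

/-- Near the edge the lowering is at least a quarter of the test function at the edge. -/
lemma exists_edge_shift {K : ℕ} (hK : 1 ≤ K) : ∃ e > 0, ∃ t₀ > 0, ∀ t, 0 ≤ t → t ≤ t₀ →
    ∀ z, 2 < z → z ≤ 2 + e → sSup (dfm K t).support < z - t * (K / 4) ∧
      ∫ x, (z - t * (K / 4) - x)⁻¹ ∂dfm K t ≤ ∫ x, (z - x)⁻¹ ∂sc := by
  have hK0 : (1 : ℝ) ≤ K := by exact_mod_cast hK
  obtain ⟨r, hr, hnear⟩ := Metric.continuousAt_iff.1 ((continuous_tst K).continuousAt (x := 2))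
    ((K : ℝ) / 2) (by linarith)
  set ρ := min (r / 2) 1
  have hρ : 0 < ρ := lt_min (by linarith) one_pos
  have htop : ∀ x : ℝ, 2 - ρ ≤ x → x ≤ 2 → (K : ℝ) / 2 ≤ tst K x := fun x h1 h2 => by
    have := hnear (x := x) (by
      rw [Real.dist_eq, abs_lt]
      have : ρ ≤ r / 2 := min_le_left _ _
      constructor <;> linarith)
    rw [tst_two, Real.dist_eq, abs_lt] at this
    linarith [this.1]
  have hp := pi_pos
  set a := min (π / 4) (min (ρ / 4) (ρ ^ 2 / (24 * π ^ 3)))
  have ha : 0 < a := lt_min (by positivity) (lt_min (by positivity) (by positivity))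
  set e := 4 * a ^ 2
  have he : 0 < e := by positivity
  refine ⟨e, he, min e (ρ / 2) / K, div_pos (lt_min he (by linarith)) (by linarith), fun t ht htt z hz hze => ?_⟩
  set d := t * ((K : ℝ) / 4) with hd
  have hd0 : 0 ≤ d := by positivity
  have htK : t * K ≤ min e (ρ / 2) := (le_div_iff₀ (by linarith)).1 htt
  have hde : d ≤ e := by linarith [min_le_left e (ρ / 2)]
  have hdρ : d ≤ ρ / 2 := by linarith [min_le_right e (ρ / 2)]
  have hae : e ≤ ρ := by
    have h1 : a ≤ ρ / 4 := (min_le_right _ _).trans (min_le_left _ _)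
    have h2 : ρ ≤ 1 := min_le_right _ _
    nlinarith [pow_le_pow_left₀ ha.le h1 2, mul_le_mul_of_nonneg_left h2 hρ.le]
  have hsup : sSup (dfm K t).support ≤ 2 - d := by
    refine csSup_le (Measure.nonempty_support (NeZero.ne _)) fun x hx =>
      (Measure.support_subset_of_isClosed (μ := dfm K t) isClosed_Iic ?_ hx : x ∈ Iic (2 - d))
    refine (ae_map_iff (measurable_dfm K t).aemeasurable measurableSet_Iic).2 (ae_sc.mono fun y hy => ?_)
    show y - t * tst K y ≤ 2 - d
    rcases le_or_gt (2 - ρ) y with h | h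
    · have := mul_le_mul_of_nonneg_left (htop y h hy.2) ht
      linarith [hy.2]
    · linarith [mul_nonneg ht (tst_nonneg K hy)]
  refine ⟨by linarith, ?_⟩
  rw [integral_dfm_cauchy]
  set top : Set ℝ := Icc (2 - e) 2
  set B := 2 * d / ρ ^ 2
  set A := d / (6 * e ^ 2)
  have hint0 : Integrable (fun x => (z - x)⁻¹) sc :=
    integrable_of_ae (measurable_const.sub measurable_id).inv (C := (z - 2)⁻¹) fun x hx => by
      show |(z - x)⁻¹| ≤ _
      rw [abs_of_pos (inv_pos.2 (by linarith [hx.2]))]
      exact inv_anti₀ (by linarith) (by linarith [hx.2])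
  have hiA : Integrable (top.indicator fun _ => A) sc :=
    (integrable_const A).indicator measurableSet_Icc
  have hpt : ∀ x ∈ Icc (-2 : ℝ) 2, 0 < z - d - (x - t * tst K x) ∧
      (z - d - (x - t * tst K x))⁻¹ ≤ (z - x)⁻¹ + B - top.indicator (fun _ => A) x := by
    intro x hx
    have hh := mul_nonneg ht (tst_nonneg K hx)
    have hpos : 0 < z - x := by linarith [hx.2]
    rcases le_or_gt (2 - ρ) x with h | h
    · have hh' : 2 * d ≤ t * tst K x := by
        have := mul_le_mul_of_nonneg_left (htop x h hx.2) ht; linarith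
      refine ⟨by linarith, ?_⟩
      refine (inv_anti₀ (show 0 < z - x + d by linarith) (by linarith)).trans ?_
      have h1 : (z - x)⁻¹ - (z - x + d)⁻¹ = d / ((z - x) * (z - x + d)) := by field_simp; ring
      by_cases hxt : x ∈ top
      · rw [indicator_of_mem hxt]
        have : d / (6 * e ^ 2) ≤ d / ((z - x) * (z - x + d)) := by
          refine div_le_div_of_nonneg_left hd0 (by positivity) ?_
          have : (z - x) * (z - x + d) ≤ (2 * e) * (3 * e) :=
            mul_le_mul (by linarith [hxt.1]) (by linarith [hxt.1]) (by linarith) (by linarith)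
          linarith
        have : 0 ≤ B := by positivity
        linarith
      · rw [indicator_of_notMem hxt, sub_zero]
        have : 0 ≤ d / ((z - x) * (z - x + d)) := by positivity
        have : 0 ≤ B := by positivity
        linarith
    · rw [indicator_of_notMem (fun hxt => absurd hxt.1 (by linarith)), sub_zero]
      refine ⟨by linarith, ?_⟩
      refine (inv_anti₀ (show 0 < z - x - d by linarith) (by linarith)).trans ?_
      have h1 : (z - x - d)⁻¹ - (z - x)⁻¹ = d / ((z - x - d) * (z - x)) := by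
        have : z - x - d ≠ 0 := by linarith
        field_simp
        ring
      have : d / ((z - x - d) * (z - x)) ≤ B := by
        show _ ≤ 2 * d / ρ ^ 2
        rw [show 2 * d / ρ ^ 2 = d / (ρ / 2 * ρ) by field_simp]
        exact div_le_div_of_nonneg_left hd0 (by positivity)
          (mul_le_mul (by linarith) (by linarith) hρ.le (by linarith))
      linarith
  refine (integral_mono_of_nonneg (ae_sc.mono fun x hx => inv_nonneg.2 (hpt x hx).1.le)
    ((hint0.add (integrable_const B)).sub hiA) (ae_sc.mono fun x hx => (hpt x hx).2)).trans ?_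
  simp only [Pi.sub_apply, Pi.add_apply]
  rw [integral_sub (f := fun x => (z - x)⁻¹ + B) (hint0.add (integrable_const B)) hiA,
    integral_add hint0 (integrable_const B), integral_indicator_const A measurableSet_Icc,
    integral_const, probReal_univ, one_smul, smul_eq_mul]
  have hm := sc_top_mass ha (min_le_left _ _)
  have hsin : 2 / π * a ≤ sin a := Real.mul_le_sin ha.le (by
    have : a ≤ π / 4 := min_le_left _ _
    linarith)
  have hmass : 8 / π ^ 3 * a ^ 3 ≤ sc.real top := by
    refine le_trans ?_ hm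
    rw [show 8 / π ^ 3 * a ^ 3 = 2 / π * (a * (2 / π * a) ^ 2) by field_simp; ring]
    gcongr
  have haρ : a * (24 * π ^ 3) ≤ ρ ^ 2 := by
    have : a ≤ ρ ^ 2 / (24 * π ^ 3) := (min_le_right _ _).trans (min_le_right _ _)
    rwa [le_div_iff₀ (by positivity)] at this
  have hBA : B ≤ 8 / π ^ 3 * a ^ 3 * A := by
    show 2 * d / ρ ^ 2 ≤ 8 / π ^ 3 * a ^ 3 * (d / (6 * (4 * a ^ 2) ^ 2))
    rw [show 8 / π ^ 3 * a ^ 3 * (d / (6 * (4 * a ^ 2) ^ 2)) = d / (12 * π ^ 3 * a) by field_simp; ring,
      div_le_div_iff₀ (by positivity) (by positivity)]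
    nlinarith [mul_le_mul_of_nonneg_left haρ hd0]
  have : 8 / π ^ 3 * a ^ 3 * A ≤ sc.real top * A := mul_le_mul_of_nonneg_right hmass (by positivity)
  linarith

/-- One rate of lowering at all weights above a quarter. -/
theorem exists_rtr_gain {K : ℕ} (hK : 1 ≤ K) : ∃ t > 0, ∀ w : ℝ, 1 / 4 ≤ w →
    rtr (dfm K t) w ≤ rtr sc w - t * ((∑ k ∈ Finset.range K, (min w 1) ^ k) / 4) := by
  have hK0 : (1 : ℝ) ≤ K := by exact_mod_cast hK
  obtain ⟨e, he, t₀, ht₀, hedge⟩ := exists_edge_shift hK
  set e' := min e 1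
  have he' : 0 < e' := lt_min he one_pos
  set C₂ := 2 * (3 * (K : ℝ)) ^ 2 / e' ^ 3
  set M := 16 * C₂
  set t := min t₀ (min (3 / (4 * (M + 1))) (e' / (6 * K)))
  have ht : 0 < t := lt_min ht₀ (lt_min (by positivity) (by positivity))
  have htM : M * t ≤ 3 / 4 := by
    have h : t ≤ 3 / (4 * (M + 1)) := (min_le_right _ _).trans (min_le_left _ _)
    rw [le_div_iff₀ (by positivity)] at h
    nlinarith
  have hte : t * (6 * K) ≤ e' := by
    have h : t ≤ e' / (6 * K) := (min_le_right _ _).trans (min_le_right _ _)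
    rwa [le_div_iff₀ (by positivity)] at h
  refine ⟨t, ht, fun w hw => ?_⟩
  have hw0 : 0 < w := by linarith
  simp only [rtr, if_neg (not_le.2 hw0)]
  set c := ∑ k ∈ Finset.range K, (min w 1) ^ k
  have hc1 : 1 ≤ c := le_trans (le_of_eq (pow_zero _).symm) (Finset.single_le_sum
    (f := fun k => (min w 1) ^ k) (fun k _ => pow_nonneg (le_min hw0.le zero_le_one) k)
    (Finset.mem_range.2 hK))
  have hcK : c ≤ K := (Finset.sum_le_sum fun k _ =>
    pow_le_one₀ (le_min hw0.le zero_le_one) (min_le_right w 1)).trans (by simp)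
  suffices h : zf (dfm K t) w ≤ zf sc w - t * (c / 4) by linarith
  by_cases hw1 : w < 1
  · rw [zf_sc hw0, if_pos hw1]
    set z := w + w⁻¹ with hz
    have hz2 := two_lt_edge hw0 hw1
    rcases le_or_gt z (2 + e) with hze | hze
    · obtain ⟨h1, h2⟩ := hedge t ht.le (min_le_left _ _) z hz2 hze
      refine (csInf_le (zset_bddBelow _ w) ⟨h1, h2.trans (cauchy_sc hw0 hw1).le⟩).trans ?_
      have := mul_le_mul_of_nonneg_left hcK ht.le
      linarith
    · -- expansion away from the edge
      have hmin : min w 1 = w := min_eq_left hw1.le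
      set z' := z - c * t + M * t ^ 2
      have hMt : M * t ^ 2 ≤ 3 / 4 * t := by
        rw [sq, ← mul_assoc]; exact mul_le_mul_of_nonneg_right htM ht.le
      have hct : c * t ≤ e' / 6 := by
        have := mul_le_mul_of_nonneg_right hcK ht.le; linarith
      have hsup : sSup (dfm K t).support < z' := by
        have h2 := sSup_support_dfm_le K ht.le (t := t)
        have : e' ≤ e := min_le_left _ _
        have : 0 ≤ M * t ^ 2 := by positivity
        linarith
      refine (csInf_le (zset_bddBelow _ w) ⟨hsup, ?_⟩).trans (show z' ≤ z - t * (c / 4) by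
        have := mul_le_mul_of_nonneg_right hc1 (show (0 : ℝ) ≤ 3 / 4 * t by positivity)
        linarith)
      rw [integral_dfm_cauchy]
      set b : ℝ → ℝ := fun x => -(c * t) + M * t ^ 2 + t * tst K x
      have hb : ∀ x ∈ Icc (-2 : ℝ) 2, |b x| ≤ 3 * K * t ∧ e' ≤ z - x ∧ e' / 2 ≤ z - x + b x := by
        intro x hx
        have h1 := abs_le.1 (abs_tst_le K hx)
        have h2 := mul_le_mul_of_nonneg_left h1.2 ht.le
        have h3 := mul_le_mul_of_nonneg_left h1.1 ht.le
        have h4 := mul_le_mul_of_nonneg_right hK0 ht.le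
        have h5 := mul_le_mul_of_nonneg_right hcK ht.le
        have h6 : 0 ≤ M * t ^ 2 := by positivity
        have hb' : |b x| ≤ 3 * K * t := by
          rw [abs_le]; simp only [b]
          have : 0 ≤ c * t := by positivity
          constructor <;> linarith
        have h7 : e' ≤ z - x := by linarith [hx.2, min_le_left e (1 : ℝ)]
        exact ⟨hb', h7, by linarith [(abs_le.1 hb').1]⟩
      have hi : ∀ φ : ℝ → ℝ, Continuous φ → ∀ p : ℕ, Integrable (fun x => φ x * ((z - x)⁻¹) ^ p) sc :=
        fun φ hφ p => by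
        obtain ⟨Cb, hCb⟩ := isCompact_Icc.exists_bound_of_continuousOn (hφ.continuousOn (s := Icc (-2 : ℝ) 2))
        refine integrable_of_ae (C := Cb * (e'⁻¹) ^ p)
          (hφ.measurable.mul ((measurable_const.sub measurable_id).inv.pow_const p)) fun x hx => ?_
        show |φ x * ((z - x)⁻¹) ^ p| ≤ _
        have hpos : 0 < z - x := he'.trans_le (hb x hx).2.1
        rw [abs_mul, abs_pow, abs_of_pos (inv_pos.2 hpos)]
        exact mul_le_mul ((Real.norm_eq_abs _).ge.trans (hCb x hx))
          (pow_le_pow_left₀ (inv_pos.2 hpos).le (inv_anti₀ he' (hb x hx).2.1) p) (by positivity)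
          ((norm_nonneg _).trans (hCb x hx))
      have hpt : ∀ x ∈ Icc (-2 : ℝ) 2, (z' - (x - t * tst K x))⁻¹ ≤
          1 * ((z - x)⁻¹) ^ 1 - b x * ((z - x)⁻¹) ^ 2 + C₂ * t ^ 2 := by
        intro x hx
        obtain ⟨h1, h2, h3⟩ := hb x hx
        have ea : z' - (x - t * tst K x) = z - x + b x := by simp only [b, z']; ring
        have hpos : 0 < z - x := by linarith
        have hpos' : 0 < z - x + b x := by linarith
        rw [ea, show (z - x + b x)⁻¹ = 1 * ((z - x)⁻¹) ^ 1 - b x * ((z - x)⁻¹) ^ 2 +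
            b x ^ 2 / ((z - x) ^ 2 * (z - x + b x)) by field_simp; ring]
        refine add_le_add le_rfl ?_
        have hb2 : b x ^ 2 ≤ (3 * K) ^ 2 * t ^ 2 := by
          rw [← mul_pow, ← sq_abs]; exact pow_le_pow_left₀ (abs_nonneg _) h1 2
        calc b x ^ 2 / ((z - x) ^ 2 * (z - x + b x)) ≤ (3 * K) ^ 2 * t ^ 2 / (e' ^ 2 * (e' / 2)) := by
              refine div_le_div₀ (by positivity) hb2 (by positivity) ?_
              exact mul_le_mul (pow_le_pow_left₀ he'.le h2 2) h3 (by linarith) (by positivity)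
          _ = C₂ * t ^ 2 := by simp only [C₂]; field_simp
      have hbc : Continuous b := continuous_const.add (continuous_const.mul (continuous_tst K))
      refine (integral_mono_of_nonneg (ae_sc.mono fun x hx => inv_nonneg.2 (by
          have := (hb x hx).2.2
          simp only [b] at this
          simp only [z']
          linarith))
        (((hi _ continuous_const 1).sub (hi b hbc 2)).add (integrable_const _))
        (ae_sc.mono fun x hx => hpt x hx)).trans ?_
      simp only [Pi.add_apply, Pi.sub_apply]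
      rw [integral_add (f := fun x => 1 * ((z - x)⁻¹) ^ 1 - b x * ((z - x)⁻¹) ^ 2)
          ((hi _ continuous_const 1).sub (hi b hbc 2)) (integrable_const _),
        integral_sub (hi _ continuous_const 1) (hi b hbc 2), integral_const, probReal_univ, one_smul]
      have hI0 : ∫ x, ((z - x)⁻¹) ^ 2 ∂sc = w ^ 2 / (1 - w ^ 2) := by
        simpa [cheb_zero] using (integral_cheb_cauchy hw0 hw1 0).2
      have hI1 : ∫ x, 1 * ((z - x)⁻¹) ^ 1 ∂sc = w := by simpa using cauchy_sc hw0 hw1
      have hIh : ∫ x, tst K x * ((z - x)⁻¹) ^ 2 ∂sc = c * (w ^ 2 / (1 - w ^ 2)) := by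
        simp only [tst, Finset.sum_mul, c, hmin]
        rw [integral_finsetSum _ fun k _ => hi (fun x => cheb k x / ((k : ℝ) + 1))
          ((continuous_cheb k).div_const _) 2]
        refine Finset.sum_congr rfl fun k _ => ?_
        simp only [div_mul_eq_mul_div]
        rw [integral_div, (integral_cheb_cauchy hw0 hw1 k).2]
        field_simp
        ring
      have hIb : ∫ x, b x * ((z - x)⁻¹) ^ 2 ∂sc = M * t ^ 2 * (w ^ 2 / (1 - w ^ 2)) := by
        simp only [b, add_mul, mul_assoc]
        have j0 : ∀ r : ℝ, Integrable (fun x => r * ((z - x)⁻¹) ^ 2) sc := fun r => by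
          simpa using hi (fun _ => r) continuous_const 2
        have j1 : Integrable (fun x => t * (tst K x * ((z - x)⁻¹) ^ 2)) sc :=
          (hi _ (continuous_tst K) 2).const_mul t
        rw [integral_add (f := fun x => -(c * t) * ((z - x)⁻¹) ^ 2 + M * (t ^ 2 * ((z - x)⁻¹) ^ 2))
            ((j0 _).add ((j0 (t ^ 2)).const_mul M)) j1,
          integral_add (j0 _) ((j0 (t ^ 2)).const_mul M), integral_const_mul, integral_const_mul,
          integral_const_mul, integral_const_mul, hI0, hIh]
        ring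
      rw [hI1, hIb]
      have hI0w : 1 / 16 ≤ w ^ 2 / (1 - w ^ 2) := by
        have h2 : (1 : ℝ) / 16 ≤ w ^ 2 := by nlinarith
        refine h2.trans (le_div_self (sq_nonneg w) (by nlinarith) (by nlinarith))
      have := mul_le_mul_of_nonneg_left hI0w (show 0 ≤ M * t ^ 2 by positivity)
      simp only [M] at this ⊢
      linarith
  · rw [zf_sc hw0, if_neg hw1]
    refine le_of_forall_pos_le_add fun ε hε => ?_
    set z := 2 + min ε e
    have hm : 0 < min ε e := lt_min hε he
    obtain ⟨h1, h2⟩ := hedge t ht.le (min_le_left _ _) z (by linarith) (by linarith [min_le_right ε e])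
    obtain ⟨s, hs0, hs1, hzs⟩ := exists_edge_param (show 2 < z by linarith)
    have hle : ∫ x, (z - x)⁻¹ ∂sc ≤ w := by rw [hzs, cauchy_sc hs0 hs1]; linarith [not_lt.1 hw1]
    refine (csInf_le (zset_bddBelow _ w) ⟨h1, h2.trans hle⟩).trans ?_
    have := mul_le_mul_of_nonneg_left hcK ht.le
    linarith [min_le_left ε e]

/-- The energy gain when the order parameter is marginal at zero. -/
theorem exists_energy_gain {K : ℕ} (hK : 1 ≤ K) : ∃ t > 0, ∀ β : ℝ, 1 ≤ β → ∀ ν : Measure ℝ,
    OLaw ν → 1 - 1 / (4 * (K : ℝ)) ≤ β * tail ν 0 →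
      energy (dfm K t) β ν ≤ energy sc β ν -
        β * t * (∑ k ∈ Finset.range K, 1 / ((k : ℝ) + 1)) / 64 := by
  have hK0 : (1 : ℝ) ≤ K := by exact_mod_cast hK
  obtain ⟨t, ht, hgain⟩ := exists_rtr_gain hK
  refine ⟨t, ht, fun β hβ ν hν hT => ?_⟩
  have hβ0 : 0 < β := by linarith
  set w : ℝ → ℝ := fun q => β * tail ν q
  have hwc : Continuous w := continuous_const.mul hν.continuous_tail
  have hwl : ∀ q ∈ Icc (0 : ℝ) 1, 1 - 1 / (4 * (K : ℝ)) - q ≤ w q := fun q hq => by
    have h0 : (1 - q) * tail ν 0 ≤ tail ν q := by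
      have := hν.prob
      simp only [tail]
      rw [← integral_const_mul]
      refine integral_mono_ae ((hν.integrable_tail 0).const_mul _) (hν.integrable_tail q)
        (hν.unit.mono fun r hr => ?_)
      simp only [max_eq_right hr.1]
      rcases le_total q r with h | h
      · rw [max_eq_right h]; nlinarith [hr.2, hq.1, hq.2]
      · rw [max_eq_left h]; nlinarith [hr.1, hq.1, hq.2]
    have h1 := mul_le_mul_of_nonneg_left h0 hβ0.le
    have h2 := mul_le_mul_of_nonneg_left hT (show (0 : ℝ) ≤ 1 - q by linarith [hq.2])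
    have h3 : 0 ≤ q * (1 / (4 * (K : ℝ))) := mul_nonneg hq.1 (by positivity)
    show 1 - 1 / (4 * (K : ℝ)) - q ≤ β * tail ν q
    linarith
  -- the integrand of the gain
  set g : ℝ → ℝ := fun q => ∑ k ∈ Finset.range K,
    if q ≤ 1 / (4 * ((k : ℝ) + 1)) then (1 / 8 : ℝ) else 0
  have hpt : ∀ q ∈ Icc (0 : ℝ) 1, β * rtr (dfm K t) (w q) ≤ β * rtr sc (w q) - β * t * g q := by
    intro q hq
    by_cases hq' : q ≤ 1 / 4
    · have h14 : 1 / (4 * (K : ℝ)) ≤ 1 / 4 := by
        rw [div_le_div_iff₀ (by positivity) (by positivity)]; linarith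
      have hwq : 1 / 4 ≤ w q := by
        have := hwl q hq
        linarith
      have h := mul_le_mul_of_nonneg_left (hgain (w q) hwq) hβ0.le
      have hg : g q ≤ (∑ k ∈ Finset.range K, (min (w q) 1) ^ k) / 4 := by
        rw [Finset.sum_div]
        refine Finset.sum_le_sum fun k hk => ?_
        split_ifs with hk'
        · have hkK : (k : ℝ) + 1 ≤ K := by exact_mod_cast Finset.mem_range.1 hk
          have hb : 1 - 1 / (2 * ((k : ℝ) + 1)) ≤ min (w q) 1 := by
            refine le_min ?_ (by simp; positivity)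
            have h1 : 1 / (4 * (K : ℝ)) ≤ 1 / (4 * ((k : ℝ) + 1)) := by gcongr
            have h2 : q ≤ 1 / (4 * ((k : ℝ) + 1)) := hk'
            have h3 : 1 / (4 * ((k : ℝ) + 1)) + 1 / (4 * ((k : ℝ) + 1)) = 1 / (2 * ((k : ℝ) + 1)) := by
              field_simp; ring
            linarith [hwl q hq]
          have h0 : 0 ≤ 1 - 1 / (2 * ((k : ℝ) + 1)) := by
            rw [sub_nonneg, div_le_one (by positivity)]; linarith [(Nat.cast_nonneg k : (0 : ℝ) ≤ k)]
          have h1 := one_add_mul_le_pow (a := -(1 / (2 * ((k : ℝ) + 1)))) (by linarith) k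
          have h2 := pow_le_pow_left₀ h0 hb k
          have h3 : (k : ℝ) * (1 / (2 * ((k : ℝ) + 1))) ≤ 1 / 2 := by
            rw [mul_one_div, div_le_div_iff₀ (by positivity) two_pos]; linarith
          rw [← sub_eq_add_neg] at h1
          linarith
        · positivity
      have := mul_le_mul_of_nonneg_left hg (mul_nonneg hβ0.le ht.le)
      linarith
    · have hg : g q = 0 := Finset.sum_eq_zero fun k _ => if_neg fun h => hq' (h.trans
        (one_div_le_one_div_of_le (by positivity) (le_mul_of_one_le_right (by positivity)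
          (by linarith [(Nat.cast_nonneg k : (0 : ℝ) ≤ k)]))))
      rw [hg, mul_zero, sub_zero]
      exact mul_le_mul_of_nonneg_left (rtr_dfm_le K ht.le _) hβ0.le
  have hgi : ∀ k : ℕ, IntervalIntegrable
      (fun q => if q ≤ 1 / (4 * ((k : ℝ) + 1)) then (1 / 8 : ℝ) else 0) volume 0 1 := fun k =>
    Antitone.intervalIntegrable fun x y hxy => by
      show ite _ _ _ ≤ ite _ _ _
      split_ifs <;> linarith
  have hgI : IntervalIntegrable g volume 0 1 :=
    (IntervalIntegrable.sum (Finset.range K) fun k _ => hgi k).congr fun x _ => by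
      exact Finset.sum_apply x _ _
  have hval : ∫ q in (0 : ℝ)..1, g q = (∑ k ∈ Finset.range K, 1 / ((k : ℝ) + 1)) / 32 := by
    simp only [g]
    rw [intervalIntegral.integral_finsetSum fun k _ => hgi k, Finset.sum_div]
    refine Finset.sum_congr rfl fun k _ => ?_
    set r := 1 / (4 * ((k : ℝ) + 1)) with hr
    have hr01 : r ∈ Icc (0 : ℝ) 1 := ⟨by positivity, by
      rw [hr, div_le_one (by positivity)]; nlinarith [(Nat.cast_nonneg k : (0 : ℝ) ≤ k)]⟩
    rw [← intervalIntegral.integral_add_adjacent_intervals (b := r)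
        ((hgi k).mono_set (by rw [uIcc_of_le hr01.1, uIcc_of_le zero_le_one]; exact Icc_subset_Icc le_rfl hr01.2))
        ((hgi k).mono_set (by rw [uIcc_of_le hr01.2, uIcc_of_le zero_le_one]; exact Icc_subset_Icc hr01.1 le_rfl)),
      intervalIntegral.integral_congr (a := 0) (b := r) (g := fun _ => (1 / 8 : ℝ)) fun x hx => by
        rw [uIcc_of_le hr01.1] at hx; exact if_pos hx.2,
      intervalIntegral.integral_congr_ae (a := r) (b := 1) (g := fun _ => (0 : ℝ))
        (Filter.Eventually.of_forall fun x hx => by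
        rw [uIoc_of_le hr01.2] at hx; exact if_neg (not_le.2 hx.1))]
    simp [hr]
    field_simp
    ring
  have hA := Vale.Agent.P166F.intervalIntegrable_rtr isCompact_support_sc β hν 0 1
  have hB := Vale.Agent.P166F.intervalIntegrable_rtr (isCompact_support_dfm K ht.le) β hν 0 1
  have h := intervalIntegral.integral_mono_on zero_le_one hB (hA.sub (hgI.const_mul (β * t)))
    fun q hq => hpt q hq
  rw [intervalIntegral.integral_sub hA (hgI.const_mul (β * t)), intervalIntegral.integral_const_mul (β * t),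
    hval] at h
  simp only [energy]
  linarith

end Vale.Agent.P146F
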