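import Vale.Agent.P146F.Semi.Law

/-!
P146: the test function `∑ k < K, S_k / (k+1)` is nonnegative on the spectrum (Fejér-Jackson).
-/

namespace Vale.Agent.P146F

open Real Set Finset

/-- The test function. -/
noncomputable def tst (K : ℕ) (x : ℝ) : ℝ := ∑ k ∈ range K, cheb k x / ((k : ℝ) + 1)

lemma continuous_tst (K : ℕ) : Continuous (tst K) :=
  continuous_finsetSum _ fun k _ => (continuous_cheb k).div_const _

lemma tst_two (K : ℕ) : tst K 2 = K := by
  have h : ∀ k ∈ range K, cheb k 2 / ((k : ℝ) + 1) = 1 := fun k _ => by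
    rw [cheb_two, div_self (by positivity)]
  rw [tst, sum_congr rfl h, sum_const, card_range, nsmul_eq_mul, mul_one]

lemma abs_tst_le (K : ℕ) {x : ℝ} (hx : x ∈ Icc (-2 : ℝ) 2) : |tst K x| ≤ K := by
  refine (abs_sum_le_sum_abs _ _).trans ((sum_le_sum (g := fun _ => (1 : ℝ)) fun k _ => ?_).trans
    (by simp))
  rw [abs_div, abs_of_pos (show (0 : ℝ) < k + 1 by positivity), div_le_one (by positivity)]
  exact abs_cheb_le k hx

lemma cos_sum_mul_sin (n : ℕ) (θ : ℝ) :
    2 * sin (θ / 2) * ∑ k ∈ range n, cos (((k : ℝ) + 1) * θ) =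
      sin (((n : ℝ) + 1 / 2) * θ) - sin (θ / 2) := by
  induction n with
  | zero => simp; ring_nf
  | succ n ih =>
    rw [sum_range_succ, mul_add, ih]
    push_cast
    rw [show ((n : ℝ) + 1 + 1 / 2) * θ = ((n : ℝ) + 1) * θ + θ / 2 by ring,
      show ((n : ℝ) + 1 / 2) * θ = ((n : ℝ) + 1) * θ - θ / 2 by ring, sin_add, sin_sub]
    ring

theorem fejer_jackson (n : ℕ) {θ : ℝ} (hθ : θ ∈ Icc (0 : ℝ) π) :
    0 ≤ ∑ k ∈ range n, sin (((k : ℝ) + 1) * θ) / ((k : ℝ) + 1) := by
  induction n generalizing θ with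
  | zero => simp
  | succ n ih =>
    set f : ℝ → ℝ := fun θ => ∑ k ∈ range (n + 1), sin (((k : ℝ) + 1) * θ) / ((k : ℝ) + 1) with hf
    show 0 ≤ f θ
    obtain ⟨a, ha, hmin⟩ := isCompact_Icc.exists_isMinOn (nonempty_Icc.2 pi_pos.le)
      (show ContinuousOn f (Icc 0 π) from Continuous.continuousOn (by fun_prop))
    refine le_trans ?_ (hmin hθ)
    rcases eq_endpoints_or_mem_Ioo_of_mem_Icc ha with h | h | h
    · simp [hf, h]
    · refine le_of_eq (sum_eq_zero fun k _ => ?_).symm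
      rw [h, show ((k : ℝ) + 1) * π = ((k + 1 : ℕ) : ℝ) * π by push_cast; ring, sin_nat_mul_pi,
        zero_div]
    · have hd : HasDerivAt f (∑ k ∈ range (n + 1), cos (((k : ℝ) + 1) * a)) a := by
        refine HasDerivAt.fun_sum fun k _ => ?_
        refine ((((hasDerivAt_id a).const_mul ((k : ℝ) + 1)).sin).div_const ((k : ℝ) + 1)).congr_deriv ?_
        simp only [id_eq, mul_one]
        field_simp
      have h0 := (hmin.isLocalMin (Icc_mem_nhds h.1 h.2)).hasDerivAt_eq_zero hd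
      have key := cos_sum_mul_sin (n + 1) a
      rw [h0, mul_zero] at key
      push_cast at key
      set s := sin (a / 2)
      set c := cos (a / 2)
      set C := cos (((n : ℝ) + 1 + 1 / 2) * a)
      have hs : 0 ≤ s := sin_nonneg_of_nonneg_of_le_pi (by linarith [h.1]) (by linarith [h.1, h.2])
      have hc : 0 ≤ c := cos_nonneg_of_mem_Icc ⟨by linarith [h.1, pi_pos], by linarith [h.2]⟩
      have hsC : sin (((n : ℝ) + 1 + 1 / 2) * a) = s := by linarith
      have hC : |C| ≤ |c| := sq_le_sq.1 (le_of_eq (by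
        have h1 := sin_sq_add_cos_sq (((n : ℝ) + 1 + 1 / 2) * a)
        have h2 := sin_sq_add_cos_sq (a / 2)
        rw [hsC] at h1
        linarith))
      rw [abs_of_nonneg hc] at hC
      have hsn : 0 ≤ sin (((n : ℝ) + 1) * a) := by
        rw [show ((n : ℝ) + 1) * a = ((n : ℝ) + 1 + 1 / 2) * a - a / 2 by ring, sin_sub, hsC]
        have := mul_le_mul_of_nonneg_left ((le_abs_self C).trans hC) hs
        linarith
      simp only [hf, sum_range_succ _ n]
      exact add_nonneg (ih ha) (div_nonneg hsn (by positivity))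

theorem tst_nonneg (K : ℕ) {x : ℝ} (hx : x ∈ Icc (-2 : ℝ) 2) : 0 ≤ tst K x := by
  have hopen : ∀ y ∈ Ioo (-2 : ℝ) 2, 0 ≤ tst K y := fun y hy => by
    set θ := arccos (y / 2)
    have hy' : 2 * cos θ = y := by
      rw [cos_arccos (by linarith [hy.1]) (by linarith [hy.2]), mul_div_cancel₀ y (two_ne_zero' ℝ)]
    have hθ : θ ∈ Ioo 0 π := ⟨arccos_pos.2 (by linarith [hy.2]), arccos_lt_pi.2 (by linarith [hy.1])⟩
    have h := fejer_jackson K ⟨hθ.1.le, hθ.2.le⟩
    have e : ∑ k ∈ range K, sin (((k : ℝ) + 1) * θ) / ((k : ℝ) + 1) = tst K y * sin θ := by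
      rw [tst, sum_mul]
      exact sum_congr rfl fun k _ => by rw [← cheb_sin, hy']; ring
    rw [e] at h
    exact nonneg_of_mul_nonneg_left h (sin_pos_of_pos_of_lt_pi hθ.1 hθ.2)
  have hcl : IsClosed {y : ℝ | 0 ≤ tst K y} := isClosed_le continuous_const (continuous_tst K)
  have h2 := hcl.closure_subset_iff.2 hopen
  rw [closure_Ioo (by norm_num)] at h2
  exact h2 hx

end Vale.Agent.P146F
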